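import Vale.Agent.P074.FinMaps
import Vale.Agent.P074.Potential
import Vale.Agent.P074.Lower
import Vale.Agent.P074.WStab
import Vale.Agent.P074.PotL2
import Vale.Agent.P074.Grad
import Vale.Agent.P074.Discr
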